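import Vale.Agent.P181.MN.Defs
import Vale.Agent.P181.MD.H809.Num
import Vale.Agent.P181.H539.UpStmt
import Vale.Agent.P181.H539.Growth

set_option autoImplicit false

/-!
# P181, MN (N3): the gap theorem near the diagonal
-/

namespace Vale.Agent.P181.MN.H627

open Vale.Agent.P181
open Vale.Agent.P181.H280 (plethMult)
open Vale.Agent.P181.H463 (gt)
open Vale.Agent.P181.T4 (ex)

lemma choose_mono {x y k : ℕ} (h : x ≤ y) (hk : 0 < k) :
    (x + k - 1).choose (k - 1) ≤ (y + k - 1).choose (k - 1) :=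
  Nat.choose_le_choose _ (by omega)

/-- The number of columns is smaller than the gap. -/
lemma N_le {a b K g N : ℕ} (hK : 20 ≤ K) (ha : 2 ^ 10 ≤ a) (hbK : b ^ K ≤ a ^ (K + 1))
    (hg : a ^ (2 * K - 1) ≤ g ^ K) (hN : N ^ 5 ≤ 32 * b ^ 8) : N ≤ g := by
  have h1 : (N ^ 5) ^ K ≤ (g ^ 5) ^ K := by
    calc (N ^ 5) ^ K ≤ (32 * b ^ 8) ^ K := Nat.pow_le_pow_left hN K
      _ = 2 ^ (5 * K) * (b ^ K) ^ 8 := by
        rw [mul_pow, pow_mul 2 5 K, ← pow_mul b 8 K, ← pow_mul b K 8, mul_comm 8 K]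
        norm_num
      _ ≤ a ^ K * (a ^ (K + 1)) ^ 8 := by
        apply Nat.mul_le_mul
        · calc 2 ^ (5 * K) ≤ 2 ^ (10 * K) := Nat.pow_le_pow_right (by norm_num) (by omega)
            _ = (2 ^ 10) ^ K := by rw [pow_mul]
            _ ≤ a ^ K := Nat.pow_le_pow_left ha K
        · exact Nat.pow_le_pow_left hbK 8
      _ = a ^ (9 * K + 8) := by
        rw [← pow_mul, ← pow_add]
        congr 1
        ring
      _ ≤ a ^ ((2 * K - 1) * 5) := Nat.pow_le_pow_right (by omega) (by omega)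
      _ = (a ^ (2 * K - 1)) ^ 5 := by rw [pow_mul]
      _ ≤ (g ^ K) ^ 5 := Nat.pow_le_pow_left hg 5
      _ = (g ^ 5) ^ K := by rw [← pow_mul, ← pow_mul, mul_comm]
  have h2 : N ^ 5 ≤ g ^ 5 := (Nat.pow_le_pow_iff_left (by omega)).1 h1
  exact (Nat.pow_le_pow_iff_left (by norm_num)).1 h2

lemma cons_self {k : ℕ} (η : Fin (k + 2) → ℕ) :
    (Fin.cons (η 0) (Fin.cons (η 1) fun i : Fin k => η i.succ.succ) : Fin (k + 2) → ℕ) = η := by
  funext i
  refine Fin.cases rfl (fun i => ?_) i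
  refine Fin.cases rfl (fun i => rfl) i

/-- **(N3)** -/
theorem lbn (h1 : RowG) (h2 : NumN) (hM : MD.MatM) (hD : MD.DesM) (hR : MD.RemStmt)
    (hU : TL.UpB) : LBN := by
  intro ε hε
  obtain ⟨K, a₀, hK, hnum⟩ := h2 ε hε
  obtain ⟨b0, hdes⟩ := hD
  obtain ⟨E, hE⟩ := exists_nat_gt (3 / ε)
  refine ⟨K, max a₀ (max b0 (max (2 ^ 10) E)), hK, ?_⟩
  intro a b k m g lam ha hab hbK hka hanti hsum hm3 hmn hm20 hg hgap
  have ha0 : a₀ ≤ a := (le_max_left _ _).trans ha
  have hab0 : b0 ≤ a := ((le_max_left _ _).trans (le_max_right _ _)).trans ha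
  have ha10 : 2 ^ 10 ≤ a := (((le_max_left _ _).trans (le_max_right _ _)).trans
    (le_max_right _ _)).trans ha
  have haE : E ≤ a := (((le_max_right _ _).trans (le_max_right _ _)).trans
    (le_max_right _ _)).trans ha
  have haR : (1024 : ℝ) ≤ a := by exact_mod_cast ha10
  have hab' : a ≤ b := by
    have : (a : ℝ) ≤ b := by nlinarith
    exact_mod_cast this
  obtain ⟨N, hN1, hN2⟩ := MD.H809.exists_N (show 2 ≤ b by omega)
  have hNg : N ≤ g := N_le hK ha10 hbK hg hN2
  have hmd := hdes b m N (by omega) hm3 hm20 hN1 hN2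
  obtain ⟨η, hηd⟩ : ∃ η : Fin (k + 2) → ℕ, η = fun i => lam i - if (i : ℕ) < m then N else 0 :=
    ⟨_, rfl⟩
  have hexm : ∀ j : Fin (k + 2), m ≤ (j : ℕ) → lam j ≤ ex lam m := by
    intro j hj
    have hm : m < k + 2 := lt_of_le_of_lt hj j.2
    unfold ex
    rw [dif_pos hm]
    exact hanti (show (⟨m, hm⟩ : Fin (k + 2)) ≤ j from hj)
  have hη : ∀ i : Fin (k + 2), (if (i : ℕ) < m then N else 0) + η i = lam i := by
    intro i
    rw [hηd]
    dsimp only
    by_cases hi : (i : ℕ) < m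
    · have := hgap i hi
      rw [if_pos hi]
      omega
    · rw [if_neg hi]
      omega
  have hηa : Antitone η := by
    intro i j hij
    have e1 := hη i
    have e2 := hη j
    have e3 := hanti hij
    have hij' : (i : ℕ) ≤ j := hij
    by_cases hj : (j : ℕ) < m
    · rw [if_pos hj] at e2
      rw [if_pos (by omega)] at e1
      omega
    · rw [if_neg hj] at e2
      by_cases hi : (i : ℕ) < m
      · rw [if_pos hi] at e1
        have e4 := hgap i hi
        have e5 := hexm j (by omega)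
        omega
      · rw [if_neg hi] at e1
        omega
  have hbig : ∀ i : Fin (k + 2), (i : ℕ) < m → ∀ j : Fin (k + 2), m ≤ (j : ℕ) →
      η j + g ≤ η i := by
    intro i hi j hj
    have e1 := hη i
    have e2 := hη j
    rw [if_pos hi] at e1
    rw [if_neg (by omega)] at e2
    have e4 := hgap i hi
    have e5 := hexm j hj
    omega
  have hbig' : ∀ i : Fin (k + 2), (i : ℕ) < m → g ≤ η i := by
    intro i hi
    have e1 := hη i
    rw [if_pos hi] at e1
    have e4 := hgap i hi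
    omega
  have hmat := hM (k + 2) a b N m lam η (by omega) hmd hmn hηa hη hsum
  obtain ⟨te, hte⟩ : ∃ te : Fin k → ℕ, te = fun i => η i.succ.succ := ⟨_, rfl⟩
  have htea : Antitone te := by
    intro i j hij
    rw [hte]
    exact hηa (Fin.succ_le_succ_iff.2 (Fin.succ_le_succ_iff.2 hij))
  have hrem := hR k a (m - 2) N (fun i => lam i.succ.succ) te (by omega) (by omega)
    (fun i j hij => hanti (Fin.succ_le_succ_iff.2 (Fin.succ_le_succ_iff.2 hij))) htea
    (fun i => by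
      have e1 := hη i.succ.succ
      rw [hte]
      have e2 : ((i.succ.succ : Fin (k + 2)) : ℕ) = i + 2 := rfl
      rw [e2] at e1
      by_cases hi : (i : ℕ) < m - 2
      · rw [if_pos (by omega)] at e1
        rw [if_pos hi]
        exact e1
      · rw [if_neg (by omega)] at e1
        rw [if_neg hi]
        exact e1)
    (fun i hi => by
      have e2 : ((i.succ.succ : Fin (k + 2)) : ℕ) = i + 2 := rfl
      have e1 := hgap i.succ.succ (by omega)
      have e3 : ex (fun i : Fin k => lam i.succ.succ) (m - 2) = ex lam m := by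
        unfold ex
        by_cases hm : m < k + 2
        · rw [dif_pos hm, dif_pos (by omega)]
          refine congrArg lam (Fin.ext ?_)
          show m - 2 + 1 + 1 = m
          omega
        · rw [dif_neg hm, dif_neg (by omega)]
      rw [e3]
      omega)
  -- the rest in real numbers
  have hab2 : a + 3 ≤ b := by
    have e1 : (E : ℝ) ≤ a := by exact_mod_cast haE
    have e2 : 3 < (a : ℝ) * ε := by
      rw [div_lt_iff₀ hε] at hE
      nlinarith
    have e3 : ((a + 3 : ℕ) : ℝ) ≤ b := by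
      push_cast
      nlinarith
    exact_mod_cast e3
  obtain ⟨B, rfl⟩ : ∃ B, b = B + 2 := ⟨b - 2, by omega⟩
  have hgr := H539.gt_growth_rows (n := k) (a := a) (N := B) (l := m - 2) (n0 := g)
    (lam := te) (by omega) (by omega) (by omega) htea (by omega) (fun i hi => by
      rw [hte]
      exact hbig' i.succ.succ (by
        have e2 : ((i.succ.succ : Fin (k + 2)) : ℕ) = i + 2 := rfl
        omega))
  have hexe : ∀ x : ℕ, (∀ j : Fin (k + 2), m ≤ (j : ℕ) → η j + g ≤ x) → g ≤ x →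
      ex te (m - 2) + g ≤ x := by
    intro x hx hx0
    unfold ex
    by_cases hm : m - 2 < k
    · rw [dif_pos hm, hte]
      refine hx _ ?_
      show m ≤ m - 2 + 1 + 1
      omega
    · rw [dif_neg hm]
      omega
  have hr2 := h1 k B (m - 2) g (η 1) te (by omega) (by omega) htea (fun i => by
      rw [hte]
      exact hηa (Fin.le_def.2 (by
        have e2 : ((i.succ.succ : Fin (k + 2)) : ℕ) = i + 2 := rfl
        have e3 : ((1 : Fin (k + 2)) : ℕ) = 1 := rfl
        omega)))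
    (hexe (η 1) (hbig 1 (by
      have e3 : ((1 : Fin (k + 2)) : ℕ) = 1 := rfl
      omega)) (hbig' 1 (by
      have e3 : ((1 : Fin (k + 2)) : ℕ) = 1 := rfl
      omega)))
  have hca : Antitone (Fin.cons (η 1) te : Fin (k + 1) → ℕ) := by
    have e : (Fin.cons (η 1) te : Fin (k + 1) → ℕ) = fun i => η i.succ := by
      funext i
      refine Fin.cases rfl (fun i => ?_) i
      rw [hte]
      rfl
    rw [e]
    intro i j hij
    exact hηa (Fin.succ_le_succ_iff.2 hij)
  have hr1 := h1 (k + 1) (B + 1) (m - 1) g (η 0) (Fin.cons (η 1) te) (by omega) (by omega) hca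
    (fun i => by
      refine Fin.cases ?_ (fun i => ?_) i
      · exact hηa (Fin.zero_le _)
      · rw [Fin.cons_succ, hte]
        exact hηa (Fin.zero_le _))
    (by
      have e : ex (Fin.cons (η 1) te : Fin (k + 1) → ℕ) (m - 1) = ex te (m - 2) := by
        obtain ⟨m', rfl⟩ : ∃ m', m = m' + 3 := ⟨m - 3, by omega⟩
        unfold ex
        by_cases hm : m' + 1 < k
        · rw [dif_pos (show m' + 3 - 1 < k + 1 by omega), dif_pos (show m' + 3 - 2 < k by omega)]
          have : (⟨m' + 3 - 1, by omega⟩ : Fin (k + 1)) = Fin.succ ⟨m' + 1, hm⟩ := rfl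
          rw [this, Fin.cons_succ]
          rfl
        · rw [dif_neg (by omega), dif_neg (by omega)]
      rw [e]
      exact hexe (η 0) (hbig 0 (by
        have e3 : ((0 : Fin (k + 2)) : ℕ) = 0 := rfl
        omega)) (hbig' 0 (by
        have e3 : ((0 : Fin (k + 2)) : ℕ) = 0 := rfl
        omega)))
  have hcs : (Fin.cons (η 0) (Fin.cons (η 1) te) : Fin (k + 2) → ℕ) = η := by
    rw [hte]
    exact cons_self η
  change g ^ (B + 1 - (m - 1)) * gt (k + 1) (B + 1) (Fin.cons (η 1) te) ≤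
    (B + 1).factorial * gt (k + 2) (B + 2) (Fin.cons (η 0) (Fin.cons (η 1) te)) at hr1
  rw [hcs] at hr1
  have hup := hU a (B + 2) k lam
  have hfin := H539.finrank_HW_le_gt k a (lam := fun i : Fin k => lam i.succ.succ)
    (fun i j hij => hanti (Fin.succ_le_succ_iff.2 (Fin.succ_le_succ_iff.2 hij)))
  have hnum' := hnum a (B + 2) m g ha0 hab hbK hm3 hm20 hg
  have hsη : ∑ i, η i ≤ a * (B + 2) := by
    rw [← hsum]
    exact Finset.sum_le_sum fun i _ => by
      have := hη i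
      omega
  have hch := choose_mono hsη (show 0 < B + 2 by omega)
  simp only [show B + 2 - 1 = B + 1 from rfl, show B + 2 - 2 = B from rfl] at hnum' hmat hch
  rw [show a * (B + 2) + (B + 2) - 1 = a * (B + 2) + (B + 2) - 1 from rfl] at hnum'
  -- names
  obtain ⟨G, hG⟩ : ∃ G : ℝ, G = gt k a te := ⟨_, rfl⟩
  obtain ⟨P, hP⟩ : ∃ P : ℝ, P = plethMult (B + 2) a (k + 2) lam := ⟨_, rfl⟩
  obtain ⟨CH, hCH⟩ : ∃ CH : ℝ, CH = ((a * (B + 2) + (B + 2) - 1).choose (B + 1) : ℕ) := ⟨_, rfl⟩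
  obtain ⟨F0, hF0⟩ : ∃ F0 : ℝ, F0 = (B + 2).factorial := ⟨_, rfl⟩
  obtain ⟨F1, hF1⟩ : ∃ F1 : ℝ, F1 = (B + 1).factorial := ⟨_, rfl⟩
  obtain ⟨F2, hF2⟩ : ∃ F2 : ℝ, F2 = B.factorial := ⟨_, rfl⟩
  obtain ⟨R, hRd⟩ : ∃ R : ℝ, R = (1 + (g : ℝ) / (B : ℝ)) ^ ((m - 2) * (B - a)) := ⟨_, rfl⟩
  have e1 : (plethMult a (B + 2) (k + 2) lam : ℝ) ≤
      ((a + (B + 2)).choose a : ℝ) * 2 ^ ((m - 2) * a) * G := by
    have e2 : plethMult a (B + 2) (k + 2) lam ≤
        (a + (B + 2)).choose a * (2 ^ ((m - 2) * a) * gt k a te) :=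
      hup.trans (Nat.mul_le_mul_left _ (hfin.trans hrem))
    have e3 : (plethMult a (B + 2) (k + 2) lam : ℝ) ≤
        ((a + (B + 2)).choose a * (2 ^ ((m - 2) * a) * gt k a te) : ℕ) := by exact_mod_cast e2
    push_cast at e3
    rw [hG, mul_assoc]
    exact e3
  have e4 : (gt (k + 2) (B + 2) η : ℝ) ≤ CH * (F0 * P) := by
    have e2 : gt (k + 2) (B + 2) η ≤ (a * (B + 2) + (B + 2) - 1).choose (B + 1) *
        ((B + 2).factorial * plethMult (B + 2) a (k + 2) lam) :=
      hmat.trans (Nat.mul_le_mul_right _ hch)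
    rw [hCH, hF0, hP]
    exact_mod_cast e2
  have e5 : (g : ℝ) ^ (B + 2 - m) * gt (k + 1) (B + 1) (Fin.cons (η 1) te) ≤
      F1 * gt (k + 2) (B + 2) η := by
    have e2 := hr1
    rw [show B + 1 - (m - 1) = B + 2 - m by omega] at e2
    rw [hF1]
    exact_mod_cast e2
  have e6 : (g : ℝ) ^ (B + 2 - m) * gt k B te ≤
      F2 * gt (k + 1) (B + 1) (Fin.cons (η 1) te) := by
    have e2 := hr2
    rw [show B - (m - 2) = B + 2 - m by omega] at e2
    rw [hF2]
    exact_mod_cast e2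
  have e7 : G * R ≤ gt k B te := by
    rw [hG, hRd]
    exact hgr
  have hgp : (0 : ℝ) ≤ (g : ℝ) ^ (B + 2 - m) := by positivity
  have hF1p : 0 < F1 := by
    rw [hF1]
    exact_mod_cast Nat.factorial_pos _
  have hF2p : 0 < F2 := by
    rw [hF2]
    exact_mod_cast Nat.factorial_pos _
  have hF0p : 0 < F0 := by
    rw [hF0]
    exact_mod_cast Nat.factorial_pos _
  have hCHp : 0 < CH := by
    rw [hCH]
    exact_mod_cast Nat.choose_pos (by
      have : B + 2 ≤ a * (B + 2) := Nat.le_mul_of_pos_left _ (by omega)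
      omega)
  have hG0 : 0 ≤ G := by
    rw [hG]
    exact Nat.cast_nonneg _
  have e8 : (g : ℝ) ^ (2 * (B + 2 - m)) * (G * R) ≤ F1 * F2 * (CH * (F0 * P)) := by
    calc (g : ℝ) ^ (2 * (B + 2 - m)) * (G * R)
        = (g : ℝ) ^ (B + 2 - m) * ((g : ℝ) ^ (B + 2 - m) * (G * R)) := by
          rw [two_mul, pow_add]
          ring
      _ ≤ (g : ℝ) ^ (B + 2 - m) * ((g : ℝ) ^ (B + 2 - m) * gt k B te) :=
          mul_le_mul_of_nonneg_left (mul_le_mul_of_nonneg_left e7 hgp) hgp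
      _ ≤ (g : ℝ) ^ (B + 2 - m) * (F2 * gt (k + 1) (B + 1) (Fin.cons (η 1) te)) :=
          mul_le_mul_of_nonneg_left e6 hgp
      _ = F2 * ((g : ℝ) ^ (B + 2 - m) * gt (k + 1) (B + 1) (Fin.cons (η 1) te)) := by ring
      _ ≤ F2 * (F1 * gt (k + 2) (B + 2) η) := mul_le_mul_of_nonneg_left e5 hF2p.le
      _ ≤ F2 * (F1 * (CH * (F0 * P))) :=
          mul_le_mul_of_nonneg_left (mul_le_mul_of_nonneg_left e4 hF1p.le) hF2p.le
      _ = F1 * F2 * (CH * (F0 * P)) := by ring
  have e9 : ((a + (B + 2)).choose a : ℝ) * 2 ^ ((m - 2) * a) * (F1 * F2) * (CH * F0) ≤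
      (g : ℝ) ^ (2 * (B + 2 - m)) * R := by
    rw [hF1, hF2, hF0, hCH, hRd]
    exact hnum'
  have e10 : (((a + (B + 2)).choose a : ℝ) * 2 ^ ((m - 2) * a) * G) * (F1 * F2 * (CH * F0)) ≤
      P * (F1 * F2 * (CH * F0)) := by
    calc (((a + (B + 2)).choose a : ℝ) * 2 ^ ((m - 2) * a) * G) * (F1 * F2 * (CH * F0))
        = (((a + (B + 2)).choose a : ℝ) * 2 ^ ((m - 2) * a) * (F1 * F2) * (CH * F0)) * G := by
          ring
      _ ≤ ((g : ℝ) ^ (2 * (B + 2 - m)) * R) * G := mul_le_mul_of_nonneg_right e9 hG0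
      _ = (g : ℝ) ^ (2 * (B + 2 - m)) * (G * R) := by ring
      _ ≤ F1 * F2 * (CH * (F0 * P)) := e8
      _ = P * (F1 * F2 * (CH * F0)) := by ring
  have e11 : ((a + (B + 2)).choose a : ℝ) * 2 ^ ((m - 2) * a) * G ≤ P :=
    le_of_mul_le_mul_right e10 (by positivity)
  have e12 := e1.trans e11
  rw [hP] at e12
  exact_mod_cast e12

end Vale.Agent.P181.MN.H627
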